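import Mathlib

set_option autoImplicit false

/-!
# P181, flat shapes: the word lemma

If `x` is killed by all symmetrisers of `M + 1` positions and by all column antisymmetrisers with
`M` columns, then `x = 0`.
-/

namespace Vale.Agent.P181.FLAT.H487

open Finset

variable {D n M : ℕ}

/-- A word without a weakly increasing subword of length `M + 1` has a colouring of its positions
with `M` colours, strictly decreasing on each colour. -/
theorem exists_colour (w : Fin D → Fin n)
    (h : ∀ P : Finset (Fin D), P.card = M + 1 → ¬ MonotoneOn w P) :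
    ∃ κ : Fin D → Fin M, ∀ i j, i < j → κ i = κ j → w j < w i := by
  classical
  let S : Fin D → Finset (Finset (Fin D)) := fun i =>
    univ.filter (fun Q => i ∈ Q ∧ (∀ j ∈ Q, j ≤ i) ∧ MonotoneOn w Q)
  let ℓ : Fin D → ℕ := fun i => (S i).sup Finset.card
  have hmem : ∀ i, ({i} : Finset (Fin D)) ∈ S i := by
    intro i
    simp only [S, mem_filter, mem_univ, true_and, mem_singleton, forall_eq, le_refl, true_and]
    intro a ha b hb _
    simp only [coe_singleton, Set.mem_singleton_iff] at ha hb
    rw [ha, hb]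
  have h1 : ∀ i, 1 ≤ ℓ i := fun i => by
    have h0 : ({i} : Finset (Fin D)).card ≤ ℓ i := Finset.le_sup (f := Finset.card) (hmem i)
    rwa [card_singleton] at h0
  have hex : ∀ i, ∃ Q ∈ S i, ℓ i = Q.card := fun i =>
    Finset.exists_mem_eq_sup (S i) ⟨_, hmem i⟩ Finset.card
  have h2 : ∀ i, ℓ i ≤ M := by
    intro i
    obtain ⟨Q, hQ, hc⟩ := hex i
    by_contra hlt
    obtain ⟨P, hPQ, hP⟩ := Finset.exists_subset_card_eq (s := Q) (n := M + 1) (by omega)
    refine h P hP ?_
    simp only [S, mem_filter, mem_univ, true_and] at hQ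
    exact hQ.2.2.mono (by exact_mod_cast hPQ)
  have h3 : ∀ i j, i < j → w i ≤ w j → ℓ i < ℓ j := by
    intro i j hij hw
    obtain ⟨Q, hQ, hc⟩ := hex i
    simp only [S, mem_filter, mem_univ, true_and] at hQ
    obtain ⟨hiQ, hle, hmono⟩ := hQ
    have hjQ : j ∉ Q := fun hj => absurd (hle j hj) (not_le.mpr hij)
    have hmemj : insert j Q ∈ S j := by
      simp only [S, mem_filter, mem_univ, true_and]
      refine ⟨mem_insert_self _ _, ?_, ?_⟩
      · intro k hk
        rcases mem_insert.mp hk with rfl | hk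
        · exact le_rfl
        · exact (hle k hk).trans hij.le
      · intro a ha b hb hab
        simp only [coe_insert, Set.mem_insert_iff, mem_coe] at ha hb
        rcases ha with rfl | ha <;> rcases hb with rfl | hb
        · exact le_rfl
        · exact absurd (hab.trans (hle b hb)) (not_le.mpr hij)
        · exact (hmono ha hiQ (hle a ha)).trans hw
        · exact hmono ha hb hab
    have := Finset.le_sup (f := Finset.card) hmemj
    rw [card_insert_of_notMem hjQ] at this
    change Q.card + 1 ≤ ℓ j at this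
    omega
  refine ⟨fun i => ⟨ℓ i - 1, by have := h1 i; have := h2 i; omega⟩, fun i j hij he => ?_⟩
  by_contra hc
  have h4 := h3 i j hij (not_lt.mp hc)
  have e : ℓ i - 1 = ℓ j - 1 := congrArg Fin.val he
  have := h1 i
  have := h1 j
  omega

/-- a rearrangement inside an increasing set of positions is not smaller. -/
theorem le_comp (w : Fin D → Fin n) (P : Finset (Fin D)) (hw : MonotoneOn w P)
    (σ : Equiv.Perm (Fin D)) (hσ : ∀ i, σ i ≠ i → i ∈ P) :
    toLex w ≤ toLex (w ∘ σ) := by
  by_contra hc
  rw [not_le] at hc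
  obtain ⟨i, hlt, hi⟩ := hc
  have hi' : w (σ i) < w i := hi
  have hlt' : ∀ j, j < i → w (σ j) = w j := fun j hj => hlt j hj
  have hmem : ∀ j, j ∈ P → σ j ∈ P := by
    intro j hj
    by_cases h : σ j = j
    · rwa [h]
    · exact hσ _ (fun h' => h (σ.injective h'))
  have hiP : i ∈ P := hσ i (fun h => by rw [h] at hi'; exact lt_irrefl _ hi')
  have key : ∀ k : ℕ, (σ ^ (k + 1)) i ∈ P ∧ w ((σ ^ (k + 1)) i) = w (σ i) := by
    intro k
    induction k with
    | zero => simpa using hmem i hiP
    | succ k ih =>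
      obtain ⟨hP, he⟩ := ih
      have hlti : (σ ^ (k + 1)) i < i := by
        by_contra hge
        have := hw hiP hP (not_lt.mp hge)
        rw [he] at this
        exact absurd hi' (not_lt.mpr this)
      have hs : (σ ^ (k + 1 + 1)) i = σ ((σ ^ (k + 1)) i) := by
        rw [pow_succ']
        rfl
      rw [hs]
      exact ⟨hmem _ hP, by rw [hlt' _ hlti, he]⟩
  have ho := orderOf_pos σ
  have h := (key (orderOf σ - 1)).2
  rw [Nat.sub_add_cancel ho, pow_orderOf_eq_one] at h
  simp only [Equiv.Perm.coe_one, id_eq] at h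
  rw [h] at hi'
  exact lt_irrefl _ hi'

/-- a rearrangement which preserves the colours of a word strictly decreasing on each colour is
smaller. -/
theorem comp_lt (w : Fin D → Fin n) (κ : Fin D → Fin M)
    (hw : ∀ i j, i < j → κ i = κ j → w j < w i) (σ : Equiv.Perm (Fin D)) (hσ : κ ∘ σ = κ)
    (h1 : σ ≠ 1) : toLex (w ∘ σ) < toLex w := by
  classical
  have hne : (univ.filter (fun i => σ i ≠ i)).Nonempty := by
    by_contra hc
    rw [not_nonempty_iff_eq_empty] at hc
    apply h1
    ext i
    by_contra hi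
    have : i ∈ univ.filter (fun i => σ i ≠ i) := by
      simp only [mem_filter, mem_univ, true_and]
      intro h'
      apply hi
      rw [h']
      rfl
    rw [hc] at this
    exact absurd this (notMem_empty _)
  obtain ⟨i, hi, hmin⟩ := Finset.exists_min_image _ id hne
  simp only [mem_filter, mem_univ, true_and, id_eq] at hi hmin
  have hfix : ∀ j, j < i → σ j = j := by
    intro j hj
    by_contra h
    exact absurd (hmin j h) (not_le.mpr hj)
  have hgt : i < σ i := by
    rcases lt_trichotomy (σ i) i with h | h | h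
    · exact absurd (σ.injective (hfix _ h)) hi
    · exact absurd h hi
    · exact h
  refine ⟨i, fun j hj => ?_, ?_⟩
  · change w (σ j) = w j
    rw [hfix j hj]
  · change w (σ i) < w i
    exact hw i (σ i) hgt (congrFun hσ i).symm

/-- the antisymmetrised word. -/
noncomputable def anti (κ : Fin D → Fin M) (w v : Fin D → Fin n) : ℂ :=
  ∑ σ : {σ : Equiv.Perm (Fin D) // κ ∘ σ = κ},
    if w ∘ σ.1 = v then ((Equiv.Perm.sign σ.1 : ℤ) : ℂ) else 0

theorem anti_self (w : Fin D → Fin n) (κ : Fin D → Fin M)
    (hw : ∀ i j, i < j → κ i = κ j → w j < w i) : anti κ w w = 1 := by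
  classical
  unfold anti
  rw [Finset.sum_eq_single ⟨1, by simp⟩]
  · simp
  · intro σ _ hσ
    rw [if_neg]
    intro he
    have h1 : σ.1 ≠ 1 := fun h => hσ (Subtype.ext h)
    have := comp_lt w κ hw σ.1 σ.2 h1
    rw [he] at this
    exact lt_irrefl _ this
  · intro h
    exact absurd (mem_univ _) h

theorem anti_le (w : Fin D → Fin n) (κ : Fin D → Fin M)
    (hw : ∀ i j, i < j → κ i = κ j → w j < w i) (v : Fin D → Fin n) (hv : anti κ w v ≠ 0) :
    toLex v ≤ toLex w := by
  classical
  unfold anti at hv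
  obtain ⟨σ, _, hσ⟩ := Finset.exists_ne_zero_of_sum_ne_zero hv
  have he : w ∘ σ.1 = v := by
    by_contra h
    exact hσ (if_neg h)
  rw [← he]
  by_cases h1 : σ.1 = 1
  · rw [h1]
    exact le_rfl
  · exact (comp_lt w κ hw σ.1 σ.2 h1).le

/-- antisymmetry under an exchange of two positions of one colour. -/
theorem anti_swap (w : Fin D → Fin n) (κ : Fin D → Fin M) (p q : Fin D) (hpq : p ≠ q)
    (hκ : κ p = κ q) (v : Fin D → Fin n) :
    anti κ w (v ∘ Equiv.swap p q) = - anti κ w v := by
  classical
  have hτ : κ ∘ (Equiv.swap p q) = κ := by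
    funext i
    simp only [Function.comp]
    rcases eq_or_ne i p with rfl | h1
    · rw [Equiv.swap_apply_left, hκ]
    · rcases eq_or_ne i q with rfl | h2
      · rw [Equiv.swap_apply_right, hκ]
      · rw [Equiv.swap_apply_of_ne_of_ne h1 h2]
  have hmul : ∀ σ : Equiv.Perm (Fin D), κ ∘ σ = κ → κ ∘ (σ * Equiv.swap p q : Equiv.Perm (Fin D)) = κ := by
    intro σ hσ
    rw [Equiv.Perm.coe_mul, ← Function.comp_assoc, hσ, hτ]
  unfold anti
  rw [← Finset.sum_neg_distrib]
  refine Fintype.sum_equiv ⟨fun σ => ⟨σ.1 * Equiv.swap p q, hmul _ σ.2⟩,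
    fun σ => ⟨σ.1 * Equiv.swap p q, hmul _ σ.2⟩, fun σ => ?_, fun σ => ?_⟩ _ _ (fun σ => ?_)
  · apply Subtype.ext
    simp [mul_assoc]
  · apply Subtype.ext
    simp [mul_assoc]
  · simp only [Equiv.coe_fn_mk]
    have hiff : w ∘ (σ.1 * Equiv.swap p q : Equiv.Perm (Fin D)) = v ↔
        w ∘ σ.1 = v ∘ Equiv.swap p q := by
      constructor
      · intro h
        rw [← h]
        funext i
        simp [Function.comp]
      · intro h
        rw [Equiv.Perm.coe_mul, ← Function.comp_assoc, h]
        funext i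
        simp [Function.comp]
    by_cases h : w ∘ σ.1 = v ∘ Equiv.swap p q
    · rw [if_pos h, if_pos (hiff.mpr h), Equiv.Perm.sign_mul, Equiv.Perm.sign_swap hpq]
      push_cast
      ring
    · rw [if_neg h, if_neg (fun h' => h (hiff.mp h')), neg_zero]

/-- killed by the symmetrisers of `M + 1` positions. -/
def InX (M : ℕ) (y : (Fin D → Fin n) → ℂ) : Prop :=
  ∀ P : Finset (Fin D), P.card = M + 1 → ∀ w,
    ∑ σ : Equiv.Perm {i // i ∈ P}, y (w ∘ Equiv.Perm.ofSubtype σ) = 0

theorem anti_mem (κ : Fin D → Fin M) (w : Fin D → Fin n) : InX M (anti κ w) := by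
  classical
  intro P hP v
  obtain ⟨p, hp, q, hq, hpq, hκ⟩ := Finset.exists_ne_map_eq_of_card_lt_of_maps_to
    (s := P) (t := (univ : Finset (Fin M))) (f := κ) (by rw [hP, card_univ, Fintype.card_fin]; omega)
    (fun _ _ => mem_coe.mpr (mem_univ _))
  have hτ : (Equiv.Perm.ofSubtype (Equiv.swap (⟨p, hp⟩ : {i // i ∈ P}) ⟨q, hq⟩) :
      Equiv.Perm (Fin D)) = Equiv.swap p q := Equiv.Perm.ofSubtype_swap_eq _ _
  have h1 : ∑ σ : Equiv.Perm {i // i ∈ P}, anti κ w (v ∘ Equiv.Perm.ofSubtype σ) =
      ∑ σ : Equiv.Perm {i // i ∈ P}, - anti κ w (v ∘ Equiv.Perm.ofSubtype σ) := by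
    refine Fintype.sum_equiv (Equiv.mulRight (Equiv.swap (⟨p, hp⟩ : {i // i ∈ P}) ⟨q, hq⟩)) _ _
      (fun σ => ?_)
    rw [Equiv.coe_mulRight, map_mul, hτ, Equiv.Perm.coe_mul, ← Function.comp_assoc,
      anti_swap w κ p q hpq hκ, neg_neg]
  rw [Finset.sum_neg_distrib] at h1
  linear_combination h1 / 2

theorem not_monotone {y : (Fin D → Fin n) → ℂ} (hy : InX M y) (w : Fin D → Fin n) (hw : y w ≠ 0)
    (hmax : ∀ v, y v ≠ 0 → toLex v ≤ toLex w) (P : Finset (Fin D)) (hP : P.card = M + 1) :
    ¬ MonotoneOn w P := by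
  classical
  intro hm
  have h := hy P hP w
  have hterm : ∀ σ : Equiv.Perm {i // i ∈ P}, y (w ∘ Equiv.Perm.ofSubtype σ) =
      if w ∘ Equiv.Perm.ofSubtype σ = w then y w else 0 := by
    intro σ
    by_cases he : w ∘ Equiv.Perm.ofSubtype σ = w
    · rw [if_pos he, he]
    · rw [if_neg he]
      by_contra hne
      have h1 := hmax _ hne
      have h2 := le_comp w P hm (Equiv.Perm.ofSubtype σ) (fun i hi => by
        by_contra hc
        exact hi (Equiv.Perm.ofSubtype_apply_of_not_mem σ hc))
      exact he (toLex.injective (le_antisymm h1 h2))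
  rw [Finset.sum_congr rfl (fun σ _ => hterm σ), ← Finset.sum_filter, Finset.sum_const,
    nsmul_eq_mul] at h
  rcases mul_eq_zero.mp h with h | h
  · rw [Nat.cast_eq_zero, Finset.card_eq_zero] at h
    have : (1 : Equiv.Perm {i // i ∈ P}) ∈
        univ.filter (fun σ : Equiv.Perm {i // i ∈ P} => w ∘ Equiv.Perm.ofSubtype σ = w) := by
      simp
    rw [h] at this
    exact absurd this (notMem_empty _)
  · exact hw h

theorem pair_zero (x : (Fin D → Fin n) → ℂ)
    (hA : ∀ κ : Fin D → Fin M, ∀ w, ∑ v, x v * anti κ w v = 0)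
    (u : Lex (Fin D → Fin n)) : ∀ y : (Fin D → Fin n) → ℂ, InX M y →
      (∀ v, y v ≠ 0 → toLex v ≤ u) → ∑ v, x v * y v = 0 := by
  classical
  induction u using WellFoundedLT.induction with
  | ind u ih =>
    -- everything below `u`
    have hbelow : ∀ y : (Fin D → Fin n) → ℂ, InX M y → (∀ v, y v ≠ 0 → toLex v < u) →
        ∑ v, x v * y v = 0 := by
      intro y hy hlt
      by_cases h0 : (univ.filter (fun v => y v ≠ 0)).Nonempty
      · obtain ⟨m, hm, hmax⟩ := Finset.exists_max_image _
          (fun v : Fin D → Fin n => (toLex v : Lex (Fin D → Fin n))) h0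
        simp only [mem_filter, mem_univ, true_and] at hm hmax
        exact ih (toLex m) (hlt m hm) y hy hmax
      · apply Finset.sum_eq_zero
        intro v _
        have : y v = 0 := by
          by_contra hv
          exact h0 ⟨v, by simpa using hv⟩
        rw [this, mul_zero]
    intro y hy hle
    by_cases hu : y (ofLex u) = 0
    · refine hbelow y hy (fun v hv => lt_of_le_of_ne (hle v hv) ?_)
      rintro rfl
      exact hv hu
    · set w := ofLex u with hw
      have hwu : toLex w = u := rfl
      obtain ⟨κ, hκ⟩ := exists_colour (M := M) w (fun P hP =>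
        not_monotone hy w hu (fun v hv => hle v hv) P hP)
      have hself := anti_self w κ hκ
      have hy' : InX M (fun v => y v - y w * anti κ w v) := by
        intro P hP v
        have e1 := hy P hP v
        have e2 := anti_mem κ w P hP v
        rw [Finset.sum_sub_distrib, ← Finset.mul_sum, e1, e2]
        ring
      have h := hbelow _ hy' (fun v hv => by
        have hne : toLex v ≠ u := by
          rintro he
          have : v = w := toLex.injective (he.trans hwu.symm)
          rw [this, hself] at hv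
          apply hv
          ring
        refine lt_of_le_of_ne ?_ hne
        by_cases hyv : y v = 0
        · have : anti κ w v ≠ 0 := by
            intro h0
            apply hv
            rw [hyv, h0]
            ring
          exact anti_le w κ hκ v this
        · exact hle v hyv)
      have e : ∑ v, x v * (y v - y w * anti κ w v) =
          ∑ v, x v * y v - y w * ∑ v, x v * anti κ w v := by
        rw [Finset.mul_sum, ← Finset.sum_sub_distrib]
        exact Finset.sum_congr rfl (fun v _ => by ring)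
      rw [e, hA κ w, mul_zero, sub_zero] at h
      exact h

theorem pair_anti (x : (Fin D → Fin n) → ℂ) (κ : Fin D → Fin M) (w : Fin D → Fin n) :
    ∑ v, x v * anti κ w v =
      ∑ σ : {σ : Equiv.Perm (Fin D) // κ ∘ σ = κ}, (Equiv.Perm.sign σ.1 : ℂ) * x (w ∘ σ.1) := by
  classical
  unfold anti
  simp only [Finset.mul_sum]
  rw [Finset.sum_comm]
  refine Finset.sum_congr rfl (fun σ _ => ?_)
  rw [Finset.sum_eq_single (w ∘ σ.1)]
  · rw [if_pos rfl, mul_comm]
  · intro v _ hv
    rw [if_neg (fun h => hv h.symm), mul_zero]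
  · intro h
    exact absurd (mem_univ _) h

/-- **The word lemma.** -/
theorem words {D n M : ℕ} (x : (Fin D → Fin n) → ℂ)
    (hS : ∀ P : Finset (Fin D), P.card = M + 1 → ∀ w,
      ∑ σ : Equiv.Perm {i // i ∈ P}, x (w ∘ σ.ofSubtype) = 0)
    (hA : ∀ κ : Fin D → Fin M, ∀ w,
      ∑ σ : {σ : Equiv.Perm (Fin D) // κ ∘ σ = κ}, (Equiv.Perm.sign σ.1 : ℂ) * x (w ∘ σ.1) = 0) :
    x = 0 := by
  classical
  have hc : InX M (fun v => (starRingEnd ℂ) (x v)) := by
    intro P hP v
    rw [← map_sum]
    exact (congrArg (starRingEnd ℂ) (hS P hP v)).trans (map_zero _)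
  have hpair : ∑ v, x v * (starRingEnd ℂ) (x v) = 0 := by
    by_cases h0 : (univ.filter (fun v => x v ≠ 0)).Nonempty
    · obtain ⟨m, _, hmax⟩ := Finset.exists_max_image _
        (fun v : Fin D → Fin n => (toLex v : Lex (Fin D → Fin n))) h0
      simp only [mem_filter, mem_univ, true_and] at hmax
      refine pair_zero (M := M) x (fun κ w => (pair_anti x κ w).trans (hA κ w)) (toLex m) _ hc
        (fun v hv => hmax v (fun h => hv ?_))
      rw [h, map_zero]
    · apply Finset.sum_eq_zero
      intro v _
      have : x v = 0 := by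
        by_contra hv
        exact h0 ⟨v, by simpa using hv⟩
      rw [this, zero_mul]
  have hre : ∑ v, Complex.normSq (x v) = 0 := by
    have : ((∑ v, Complex.normSq (x v) : ℝ) : ℂ) = 0 := by
      rw [Complex.ofReal_sum, ← hpair]
      exact Finset.sum_congr rfl (fun v _ => (Complex.mul_conj (x v)).symm)
    exact_mod_cast this
  funext v
  have h := (Finset.sum_eq_zero_iff_of_nonneg (fun v _ => Complex.normSq_nonneg (x v))).mp hre v
    (mem_univ v)
  exact Complex.normSq_eq_zero.mp h

end Vale.Agent.P181.FLAT.H487
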